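import Mathlib

/-!
Prime-free squares of Gaussian integers in prescribed congruence classes (problem P015).

If `p ≡ 1 [MOD 4]` and `r ^ 2 ≡ -1` modulo `p`, then every Gaussian prime `(x, y)` with
`x + r y ≡ 0` modulo `p` has norm at most `p ^ 2`.
-/

namespace Vale.Agent.P015

open Finset

/-- A Gaussian prime whose norm is divisible by the rational prime `p` has norm at most `p²`. -/
theorem norm_le_sq_of_prime {z : GaussianInt} (hz : Prime z) {p : ℕ} (hp : p.Prime)
    (hdvd : (p : ℤ) ∣ z.norm) : z.norm ≤ (p : ℤ) ^ 2 := by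
  have hnn : 0 ≤ z.norm := GaussianInt.norm_nonneg z
  obtain ⟨n, hn⟩ := Int.eq_ofNat_of_zero_le hnn
  have hn0 : n ≠ 0 := by
    intro h
    apply hz.ne_zero
    have : z.norm = 0 := by simp [hn, h]
    exact (Zsqrtd.norm_eq_zero_iff (by norm_num) z).1 this
  have hcast : ((n : ℕ) : GaussianInt) = z * star z := by
    rw [← Zsqrtd.norm_eq_mul_conj, hn]
    simp
  have hz_n : z ∣ (n.primeFactorsList.map (Nat.cast : ℕ → GaussianInt)).prod := by
    have : ((n.primeFactorsList.map (Nat.cast : ℕ → GaussianInt)).prod) = (n : GaussianInt) := by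
      conv_rhs => rw [← Nat.prod_primeFactorsList hn0]
      rw [Nat.cast_list_prod]
    rw [this, hcast]
    exact dvd_mul_right _ _
  obtain ⟨a, ha, hza⟩ := (Prime.dvd_prod_iff hz).1 hz_n
  obtain ⟨q, hq, rfl⟩ := List.mem_map.1 ha
  have hqp : q.Prime := Nat.prime_of_mem_primeFactorsList hq
  obtain ⟨c, hc⟩ := hza
  have hnorm : ((q : ℤ) * q) = z.norm * c.norm := by
    rw [← Zsqrtd.norm_mul, ← hc, Zsqrtd.norm_natCast]
  have hpq2 : (p : ℤ) ∣ (q : ℤ) * q := hnorm ▸ dvd_mul_of_dvd_left hdvd _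
  have hpq : p ∣ q * q := by exact_mod_cast hpq2
  have hpq' : p = q := by
    rcases (Nat.Prime.dvd_mul hp).1 hpq with h | h <;>
      exact (Nat.prime_dvd_prime_iff_eq hp hqp).1 h
  subst hpq'
  have hdiv : z.norm ∣ (p : ℤ) * p := ⟨c.norm, hnorm⟩
  have hpos : (0 : ℤ) < (p : ℤ) * p := by
    have := hp.pos
    positivity
  calc z.norm ≤ (p : ℤ) * p := Int.le_of_dvd hpos hdiv
    _ = (p : ℤ) ^ 2 := by ring

/-- The congruence test for non-primality. -/
theorem not_prime_of_dvd {p : ℕ} (hp : p.Prime) {r : ℤ} (hr : (p : ℤ) ∣ r * r + 1)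
    {z : GaussianInt} (h : (p : ℤ) ∣ z.re + r * z.im) (hbig : (p : ℤ) < z.re) : ¬ Prime z := by
  intro hz
  have hnorm : z.norm = (z.re + r * z.im) * (z.re - r * z.im) + (r * r + 1) * (z.im * z.im) := by
    rw [Zsqrtd.norm_def]; ring
  have hd : (p : ℤ) ∣ z.norm := by
    rw [hnorm]
    exact dvd_add (dvd_mul_of_dvd_left h _) (dvd_mul_of_dvd_left hr _)
  have h2 := norm_le_sq_of_prime hz hp hd
  rw [Zsqrtd.norm_def] at h2
  have : (0 : ℤ) ≤ p := Int.natCast_nonneg p
  nlinarith [mul_self_nonneg z.im]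

/-- The square of offsets. -/
noncomputable def offsets (R : ℕ) : Finset (ℤ × ℤ) :=
  Finset.Icc (-(R : ℤ)) R ×ˢ Finset.Icc (-(R : ℤ)) R

theorem mem_offsets {R : ℕ} {u v : ℤ} : (u, v) ∈ offsets R ↔ |u| ≤ R ∧ |v| ≤ R := by
  simp [offsets, abs_le]

/-- Distinct primes `≡ 1 [MOD 4]` above `B`, one for each index. -/
theorem exists_primes (B : ℕ) : ∃ P : ℕ → ℕ, Function.Injective P ∧
    (∀ n, (P n).Prime ∧ B < P n ∧ ∃ r : ℤ, (P n : ℤ) ∣ r * r + 1) := by
  have hinf : {p : ℕ | p.Prime ∧ B < p ∧ p % 4 = 1}.Infinite := by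
    refine Set.infinite_of_forall_exists_gt ?_
    intro a
    obtain ⟨p, hp, hap, hmod⟩ := Nat.exists_prime_gt_modEq_one (k := 4) (max a B) (by norm_num)
    exact ⟨p, ⟨hp, lt_of_le_of_lt (le_max_right _ _) hap, hmod⟩,
      lt_of_le_of_lt (le_max_left _ _) hap⟩
  refine ⟨fun n => (hinf.natEmbedding _ n : ℕ), fun m n h => (hinf.natEmbedding _).injective
    (Subtype.ext h), fun n => ?_⟩
  obtain ⟨hp, hB, h4⟩ := (hinf.natEmbedding _ n).2
  refine ⟨hp, hB, ?_⟩
  haveI : Fact (Nat.Prime ((hinf.natEmbedding _ n : ℕ))) := ⟨hp⟩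
  obtain ⟨s, hs⟩ := (ZMod.exists_sq_eq_neg_one_iff (p := (hinf.natEmbedding _ n : ℕ))).2 (by omega)
  refine ⟨(s.val : ℤ), ?_⟩
  rw [← ZMod.intCast_zmod_eq_zero_iff_dvd]
  push_cast
  simp [← hs]

/-- The sieve data attached to a square of radius `R`: primes above `B`, square roots of `-1`. -/
theorem exists_sieve (R B : ℕ) : ∃ (M : ℕ) (p : ℤ × ℤ → ℕ) (r : ℤ × ℤ → ℤ), 0 < M ∧
    (∀ s ∈ offsets R, (p s).Prime ∧ B < p s ∧ p s ≤ M ∧ (p s : ℤ) ∣ r s * r s + 1) ∧
    (∀ b : ℤ × ℤ → ℤ, ∃ j : ℕ, j < M ∧ ∀ s ∈ offsets R, (p s : ℤ) ∣ (j : ℤ) - b s) ∧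
    (∀ s ∈ offsets R, (p s : ℤ) ∣ (M : ℤ)) := by
  obtain ⟨P, hinj, hP⟩ := exists_primes B
  choose hpr hB r hr using hP
  let e : ℤ × ℤ ↪ ℕ := ⟨Encodable.encode, Encodable.encode_injective⟩
  set p : ℤ × ℤ → ℕ := fun s => P (e s) with hp
  have hne : ∀ s ∈ offsets R, p s ≠ 0 := fun s _ => (hpr _).ne_zero
  have hco : Set.Pairwise (offsets R : Set (ℤ × ℤ)) (Function.onFun Nat.Coprime p) := by
    intro s _ t _ hst
    exact (Nat.coprime_primes (hpr _) (hpr _)).2 (fun h => hst (e.injective (hinj h)))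
  refine ⟨∏ s ∈ offsets R, p s, p, fun s => r (e s),
    Finset.prod_pos (fun s hs => (hpr _).pos), fun s hs => ⟨hpr _, hB _,
      Nat.le_of_dvd (Finset.prod_pos (fun s hs => (hpr _).pos)) (Finset.dvd_prod_of_mem p hs),
      hr _⟩, fun b => ?_, fun s hs => ?_⟩
  · let k := Nat.chineseRemainderOfFinset (fun s => (b s % (p s : ℤ)).toNat) p (offsets R) hne hco
    refine ⟨k.1, Nat.chineseRemainderOfFinset_lt_prod _ _ hne hco, fun s hs => ?_⟩
    have h1 := k.2 s hs
    have h2 : ((b s % (p s : ℤ)).toNat : ℤ) = b s % (p s : ℤ) :=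
      Int.toNat_of_nonneg (Int.emod_nonneg _ (by exact_mod_cast hne s hs))
    have h3 : (p s : ℤ) ∣ ((b s % (p s : ℤ)).toNat : ℤ) - (k.1 : ℤ) :=
      (Int.natCast_modEq_iff.2 h1).dvd
    rw [h2] at h3
    have h4 : (p s : ℤ) ∣ b s - b s % (p s : ℤ) :=
      ⟨b s / (p s : ℤ), by rw [Int.emod_def]; ring⟩
    have h5 := dvd_add h3 h4
    rw [show b s % (p s : ℤ) - (k.1 : ℤ) + (b s - b s % (p s : ℤ)) = -((k.1 : ℤ) - b s) by ring]
      at h5
    exact (dvd_neg).1 h5
  · exact Int.natCast_dvd_natCast.2 (Finset.dvd_prod_of_mem p hs)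

/-- For an irrational `a`, boundedly many multiples of `a` come within `ε` of any number mod 1. -/
theorem exists_bounded_rotation {a : ℝ} (ha : Irrational a) {ε : ℝ} (hε : 0 < ε) :
    ∃ J : ℕ, ∀ c : ℝ, ∃ (j : ℕ) (l : ℤ), j ≤ J ∧ |c + j * a - l| ≤ ε := by
  obtain ⟨m, hm⟩ := exists_nat_gt (1 / ε)
  have hm0 : (0 : ℝ) < m := lt_trans (by positivity) hm
  obtain ⟨k, q, hq0, -, hle⟩ :=
    Real.exists_int_int_abs_mul_sub_le a (n := m) (by exact_mod_cast hm0)
  set δ : ℝ := (q : ℝ) * a - k with hδ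
  have hδ0 : δ ≠ 0 := by
    intro h
    refine ha ⟨(k : ℚ) / q, ?_⟩
    have hqr : (q : ℝ) ≠ 0 := by exact_mod_cast hq0.ne'
    push_cast
    rw [div_eq_iff hqr]
    linarith
  have hδε : |δ| ≤ ε := by
    refine le_trans hle ?_
    rw [div_le_iff₀ (by positivity)]
    rw [div_lt_iff₀ hε] at hm
    nlinarith
  have key : ∀ (d : ℝ), 0 < d → ∀ c : ℝ, ∃ (i : ℕ) (l : ℤ),
      (i : ℝ) ≤ 1 / d ∧ |c + i * d - l| ≤ d := by
    intro d hd c
    set t := Int.fract (-c) with ht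
    refine ⟨⌊t / d⌋₊, -⌊-c⌋, ?_, ?_⟩
    · refine le_trans (Nat.floor_le (div_nonneg (Int.fract_nonneg _) hd.le)) ?_
      gcongr
      exact (Int.fract_lt_one _).le
    · have h1 := Nat.floor_le (div_nonneg (Int.fract_nonneg (-c)) hd.le)
      have h2 := Nat.lt_floor_add_one (t / d)
      rw [← ht, le_div_iff₀ hd] at h1
      rw [div_lt_iff₀ hd] at h2
      have hc : c = -(⌊-c⌋ : ℝ) - t := by rw [ht, Int.fract]; ring
      rw [abs_le]
      push_cast
      constructor <;> nlinarith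
  have key' : ∀ c : ℝ, ∃ (i : ℕ) (l : ℤ), (i : ℝ) ≤ 1 / |δ| ∧ |c + i * δ - l| ≤ |δ| := by
    intro c
    rcases lt_or_gt_of_ne hδ0 with h | h
    · obtain ⟨i, l, h1, h2⟩ := key (-δ) (by linarith) (-c)
      refine ⟨i, -l, ?_, ?_⟩
      · rwa [abs_of_neg h]
      · rw [abs_of_neg h]
        rw [← abs_neg]
        push_cast
        convert h2 using 2
        ring
    · obtain ⟨i, l, h1, h2⟩ := key δ h c
      refine ⟨i, l, ?_, ?_⟩
      · rwa [abs_of_pos h]
      · rwa [abs_of_pos h]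
  refine ⟨⌈1 / |δ|⌉₊ * q.toNat, fun c => ?_⟩
  obtain ⟨i, l, hi, hl⟩ := key' c
  refine ⟨i * q.toNat, l + i * k, ?_, ?_⟩
  · gcongr
    exact_mod_cast le_trans hi (Nat.le_ceil _)
  · have hq : ((q.toNat : ℕ) : ℝ) = (q : ℝ) := by
      exact_mod_cast congrArg (fun x : ℤ => (x : ℝ)) (Int.toNat_of_nonneg hq0.le)
    refine le_trans ?_ hδε
    push_cast
    rw [hq]
    refine le_of_eq_of_le ?_ hl
    congr 1
    rw [hδ]; ring

/-- `f` changes asymptotically like the linear function `a x` on bounded windows. -/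
def AsympSlope (f : ℝ → ℝ) (a : ℝ) : Prop :=
  ∀ H ε : ℝ, 0 < ε → ∃ X : ℝ, ∀ x y : ℝ, X ≤ x → X ≤ y → |y - x| ≤ H →
    |f y - f x - a * (y - x)| ≤ ε

/-- Prime-free squares of every size centred near the curve, arbitrarily far to the right. -/
theorem exists_prime_free_square {f : ℝ → ℝ} {a : ℝ} (hf : AsympSlope f a) (R : ℕ) (N : ℝ) :
    ∃ X Y : ℤ, N ≤ (X : ℝ) ∧ |(Y : ℝ) - f X| ≤ 2 ∧
      ∀ z : GaussianInt, |z.re - X| ≤ R → |z.im - Y| ≤ R → ¬ Prime z := by
  by_cases ha : Irrational a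
  · obtain ⟨M, p, r, hM, hp, hcrt, hMdvd⟩ := exists_sieve R 0
    obtain ⟨X0, -, hX0⟩ := hcrt (fun s => -s.1 - r s * s.2)
    have hMr : (0 : ℝ) < M := by exact_mod_cast hM
    obtain ⟨J, hJ⟩ := exists_bounded_rotation ha (ε := 1 / (M : ℝ)) (by positivity)
    obtain ⟨X1, hX1⟩ := hf ((J : ℝ) * M) 1 one_pos
    obtain ⟨k, hk⟩ := exists_nat_gt (max (max N X1) ((M : ℝ) + R + 1))
    set x : ℝ := (X0 : ℝ) + (k : ℝ) * M with hx
    have hxk : max (max N X1) ((M : ℝ) + R + 1) ≤ x := by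
      have : (k : ℝ) ≤ (k : ℝ) * M := le_mul_of_one_le_right (by positivity) (by exact_mod_cast hM)
      have : (0 : ℝ) ≤ (X0 : ℝ) := by positivity
      linarith
    obtain ⟨j, l, hj, hl⟩ := hJ (f x / M)
    refine ⟨(X0 : ℤ) + ((k : ℤ) + j) * M, l * M, ?_, ?_, ?_⟩
    · have : (0 : ℝ) ≤ (j : ℝ) * M := by positivity
      push_cast
      have := le_trans (le_max_left _ _) (le_trans (le_max_left _ _) hxk)
      linarith
    · have hxx : (((X0 : ℤ) + ((k : ℤ) + j) * M : ℤ) : ℝ) = x + (j : ℝ) * M := by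
        push_cast; rw [hx]; ring
      rw [hxx]
      have hX1x : X1 ≤ x := le_trans (le_max_right _ _) (le_trans (le_max_left _ _) hxk)
      have hjM : (0 : ℝ) ≤ (j : ℝ) * M := by positivity
      have h1 := hX1 x (x + (j : ℝ) * M) hX1x (by linarith) (by
        rw [show x + (j : ℝ) * M - x = (j : ℝ) * M by ring, abs_of_nonneg hjM]
        gcongr)
      have h2 : |f x + (j : ℝ) * a * M - (l : ℝ) * M| ≤ 1 := by
        have := mul_le_mul_of_nonneg_right hl hMr.le
        rw [one_div_mul_cancel hMr.ne'] at this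
        rw [← abs_of_pos hMr, ← abs_mul, abs_of_pos hMr] at this
        rwa [show (f x / M + (j : ℝ) * a - l) * M = f x + (j : ℝ) * a * M - l * M by field_simp]
          at this
      rw [show x + (j : ℝ) * M - x = (j : ℝ) * M by ring] at h1
      push_cast
      rw [abs_le] at h1 h2 ⊢
      constructor <;> nlinarith
    · intro z hu hv hz
      set u := z.re - ((X0 : ℤ) + ((k : ℤ) + j) * M) with hu'
      set v := z.im - l * M with hv'
      have hs : (u, v) ∈ offsets R := mem_offsets.2 ⟨hu, hv⟩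
      obtain ⟨hpp, -, hpM, hr2⟩ := hp _ hs
      refine not_prime_of_dvd hpp hr2 ?_ ?_ hz
      · have h := hX0 _ hs
        have hd := hMdvd _ hs
        have : z.re + r (u, v) * z.im = ((X0 : ℤ) - (-u - r (u, v) * v))
            + (((k : ℤ) + j) + r (u, v) * l) * M := by
          rw [hu', hv']; ring
        rw [this]
        exact dvd_add h (dvd_mul_of_dvd_right hd _)
      · have h1 : (M : ℝ) + R + 1 ≤ x := le_trans (le_max_right _ _) hxk
        have h2 : (M : ℤ) + R + 1 ≤ (X0 : ℤ) + (k : ℤ) * M := by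
          have : (((M : ℤ) + R + 1 : ℤ) : ℝ) ≤ (((X0 : ℤ) + (k : ℤ) * M : ℤ) : ℝ) := by
            push_cast
            rw [hx] at h1
            exact h1
          exact_mod_cast this
        have h3 : (p (u, v) : ℤ) ≤ M := by exact_mod_cast hpM
        have h4 : (0 : ℤ) ≤ (j : ℤ) * M := by positivity
        have h6 : z.re = (X0 : ℤ) + ((k : ℤ) + j) * M + u := by rw [hu']; ring
        rw [abs_le] at hu
        linarith [hu.1]
  · obtain ⟨t, ht⟩ : ∃ t : ℚ, (t : ℝ) = a := by simpa [Irrational] using ha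
    set Q : ℤ := (t.den : ℤ) with hQ
    set P : ℤ := t.num with hP
    have hQpos : 0 < Q := by rw [hQ]; exact_mod_cast t.pos
    have hQr : (0 : ℝ) < (Q : ℝ) := by exact_mod_cast hQpos
    have haPQ : a * (Q : ℝ) = (P : ℝ) := by
      rw [← ht, hQ, hP, Rat.cast_def]
      push_cast
      field_simp
    obtain ⟨M, p, r, hM, hp, hcrt, hMdvd⟩ := exists_sieve R (Q * Q + P * P).toNat
    obtain ⟨X1, hX1⟩ := hf ((Q : ℝ) * M) 1 one_pos
    set x0 : ℤ := max ⌈max N X1⌉ ((M : ℤ) + R + 1) with hx0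
    set y0 : ℤ := round (f x0) with hy0
    have hcop : ∀ s ∈ offsets R, ∃ c : ℤ, (p s : ℤ) ∣
        (Q + r s * P) * c + (x0 + s.1 + r s * (y0 + s.2)) := by
      intro s hs
      obtain ⟨hpp, hB, -, hr2⟩ := hp s hs
      have hnd : ¬ (p s : ℤ) ∣ Q + r s * P := by
        intro h
        have h1 : (p s : ℤ) ∣ Q * Q + P * P := by
          have : Q * Q + P * P = (Q + r s * P) * (Q - r s * P) + (r s * r s + 1) * (P * P) := by ring
          rw [this]
          exact dvd_add (dvd_mul_of_dvd_left h _) (dvd_mul_of_dvd_left hr2 _)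
        have hpos : 0 < Q * Q + P * P := by nlinarith [mul_self_nonneg P]
        have h2 := Int.le_of_dvd hpos h1
        omega
      have hco : IsCoprime (p s : ℤ) (Q + r s * P) :=
        (Nat.prime_iff_prime_int.1 hpp).coprime_iff_not_dvd.2 hnd
      obtain ⟨e, g, heg⟩ := hco
      set w := x0 + s.1 + r s * (y0 + s.2) with hw
      refine ⟨-(g * w), e * w, ?_⟩
      linear_combination (-w) * heg
    choose! c hc using hcop
    obtain ⟨j, hjM, hj⟩ := hcrt c
    refine ⟨x0 + j * Q, y0 + j * P, ?_, ?_, ?_⟩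
    · have h1 : max N X1 ≤ (x0 : ℝ) := le_trans (Int.le_ceil _) (by exact_mod_cast le_max_left _ _)
      have : (0 : ℝ) ≤ (j : ℝ) * Q := by positivity
      push_cast
      linarith [le_max_left N X1]
    · have h1 : max N X1 ≤ (x0 : ℝ) := le_trans (Int.le_ceil _) (by exact_mod_cast le_max_left _ _)
      have hjQ : (0 : ℝ) ≤ (j : ℝ) * Q := by positivity
      have hjr : (j : ℝ) ≤ (M : ℝ) := by exact_mod_cast hjM.le
      have h2 := hX1 x0 ((x0 : ℝ) + j * Q) (le_trans (le_max_right _ _) h1)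
        (by linarith [le_max_right N X1]) (by
        rw [show (x0 : ℝ) + j * Q - x0 = (j : ℝ) * Q by ring, abs_of_nonneg hjQ]
        nlinarith)
      have h3 := abs_sub_round (f x0)
      rw [← hy0] at h3
      rw [show (x0 : ℝ) + j * Q - x0 = (j : ℝ) * Q by ring,
        show a * ((j : ℝ) * Q) = (j : ℝ) * P by rw [← haPQ]; ring] at h2
      push_cast
      rw [abs_le] at h2 h3 ⊢
      constructor <;> linarith
    · intro z hu hv hz
      set u := z.re - (x0 + j * Q) with hu'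
      set v := z.im - (y0 + j * P) with hv'
      have hs : (u, v) ∈ offsets R := mem_offsets.2 ⟨hu, hv⟩
      obtain ⟨hpp, -, hpM, hr2⟩ := hp _ hs
      refine not_prime_of_dvd hpp hr2 ?_ ?_ hz
      · have h := hc _ hs
        have hjd := hj _ hs
        have : z.re + r (u, v) * z.im = (Q + r (u, v) * P) * ((j : ℤ) - c (u, v))
            + ((Q + r (u, v) * P) * c (u, v) + (x0 + u + r (u, v) * (y0 + v))) := by
          rw [hu', hv']; ring
        rw [this]
        exact dvd_add (dvd_mul_of_dvd_right hjd _) h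
      · have h2 : (M : ℤ) + R + 1 ≤ x0 := le_max_right _ _
        have h3 : (p (u, v) : ℤ) ≤ M := by exact_mod_cast hpM
        have h4 : (0 : ℤ) ≤ (j : ℤ) * Q := by positivity
        rw [abs_le] at hu
        omega

end Vale.Agent.P015
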