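import Vale.Agent.P015.Box

/-!
Prime-free discs on curves of convergent slope, and the absence of bounded-step walks of
Gaussian primes near them (problem P015).
-/

namespace Vale.Agent.P015

open Filter Topology

/-- A differentiable function with derivative tending to `a` has asymptotic slope `a`. -/
theorem asympSlope_of_deriv {f f' : ℝ → ℝ} {a X0 : ℝ}
    (hf : ∀ x, X0 ≤ x → HasDerivAt f (f' x) x) (hlim : Tendsto f' atTop (𝓝 a)) :
    AsympSlope f a := by
  intro H ε hε
  have hη : 0 < ε / (|H| + 1) := by positivity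
  obtain ⟨X1, hX1⟩ := (Metric.tendsto_atTop.1 hlim) _ hη
  refine ⟨max X0 X1, fun x y hx hy hxy => ?_⟩
  have hd : ∀ t ∈ Set.Ici (max X0 X1),
      HasDerivWithinAt (fun s => f s - a * s) (f' t - a) (Set.Ici (max X0 X1)) t := fun t ht => by
    have h2 : HasDerivAt (fun s => f s - a * s) (f' t - a * 1) t :=
      (hf t (le_trans (le_max_left _ _) ht)).sub ((hasDerivAt_id t).const_mul a)
    rw [mul_one] at h2
    exact h2.hasDerivWithinAt
  have hb : ∀ t ∈ Set.Ici (max X0 X1), ‖f' t - a‖ ≤ ε / (|H| + 1) := fun t ht => by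
    have := hX1 t (le_trans (le_max_right _ _) ht)
    rw [Real.dist_eq] at this
    exact this.le
  have h := (convex_Ici (max X0 X1)).norm_image_sub_le_of_norm_hasDerivWithin_le hd hb hx hy
  rw [Real.norm_eq_abs, Real.norm_eq_abs] at h
  calc |f y - f x - a * (y - x)| = |f y - a * y - (f x - a * x)| := by ring_nf
    _ ≤ ε / (|H| + 1) * |y - x| := h
    _ ≤ ε / (|H| + 1) * (|H| + 1) := by gcongr; linarith [le_abs_self H]
    _ = ε := by field_simp

/-- An affine function has its slope as asymptotic slope. -/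
theorem asympSlope_affine (a b : ℝ) : AsympSlope (fun x => a * x + b) a := by
  intro H ε hε
  refine ⟨0, fun x y _ _ _ => ?_⟩
  have : a * y + b - (a * x + b) - a * (y - x) = 0 := by ring
  simp only [this, abs_zero]
  exact hε.le

/-- Prime-free discs of every radius centred on the curve, arbitrarily far to the right. -/
theorem exists_prime_free_disc {f : ℝ → ℝ} {a : ℝ} (hf : AsympSlope f a) (r N : ℝ) :
    ∃ x : ℝ, N ≤ x ∧ ∀ z : GaussianInt,
      ((z.re : ℝ) - x) ^ 2 + ((z.im : ℝ) - f x) ^ 2 ≤ r ^ 2 → ¬ Prime z := by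
  obtain ⟨R, hR⟩ := exists_nat_gt (|r| + 2)
  obtain ⟨X, Y, hN, hY, hfree⟩ := exists_prime_free_square hf R N
  refine ⟨X, hN, fun z hz => ?_⟩
  have h1 : |(z.re : ℝ) - X| ≤ |r| := by
    apply sq_le_sq.1
    nlinarith [sq_nonneg ((z.im : ℝ) - f X)]
  have h2 : |(z.im : ℝ) - f X| ≤ |r| := by
    apply sq_le_sq.1
    nlinarith [sq_nonneg ((z.re : ℝ) - X)]
  refine hfree z ?_ ?_
  · have : |((z.re - X : ℤ) : ℝ)| ≤ (R : ℝ) := by push_cast; linarith
    exact_mod_cast this
  · have : |((z.im - Y : ℤ) : ℝ)| ≤ (R : ℝ) := by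
      push_cast
      rw [abs_le] at h2 hY ⊢
      constructor <;> linarith
    exact_mod_cast this

/-- No bounded-step walk of Gaussian primes goes off to the right near the curve. -/
theorem no_walk_tail {f : ℝ → ℝ} {a : ℝ} (hf : AsympSlope f a) {p : ℕ → GaussianInt} {n0 : ℕ}
    {D w : ℝ} (hp : ∀ n, n0 ≤ n → Prime (p n))
    (hstep : ∀ n, n0 ≤ n → |((p (n + 1)).re : ℝ) - (p n).re| ≤ D)
    (hnear : ∀ n, n0 ≤ n → ∃ x : ℝ, |((p n).re : ℝ) - x| ≤ w ∧ |((p n).im : ℝ) - f x| ≤ w)
    (htop : Tendsto (fun n => ((p n).re : ℝ)) atTop atTop) : False := by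
  have hD : 0 ≤ D := le_trans (abs_nonneg _) (hstep n0 le_rfl)
  obtain ⟨x00, hx00, -⟩ := hnear n0 le_rfl
  have hw : 0 ≤ w := le_trans (abs_nonneg _) hx00
  obtain ⟨X1, hX1⟩ := hf (D + w) 1 one_pos
  obtain ⟨n1, hn1⟩ := eventually_atTop.1 (htop.eventually (eventually_ge_atTop (X1 + w)))
  set n2 := max n0 n1
  obtain ⟨R, hR⟩ := exists_nat_gt (max D (w + |a| * (D + w) + 3))
  obtain ⟨X, Y, hN, hY, hfree⟩ :=
    exists_prime_free_square hf R (max X1 ((p n2).re : ℝ))
  obtain ⟨n3, hn3⟩ := eventually_atTop.1 (htop.eventually (eventually_ge_atTop (X : ℝ)))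
  classical
  have hex : ∃ k, (X : ℝ) ≤ ((p (n2 + k)).re : ℝ) := ⟨n3, hn3 _ (by omega)⟩
  set k := Nat.find hex
  have hk : (X : ℝ) ≤ ((p (n2 + k)).re : ℝ) := Nat.find_spec hex
  have hclose : |((p (n2 + k)).re : ℝ) - X| ≤ D := by
    rcases Nat.eq_zero_or_pos k with hk0 | hk0
    · rw [hk0, Nat.add_zero] at hk ⊢
      have := le_trans (le_max_right _ _) hN
      rw [abs_of_nonneg (by linarith)]
      linarith
    · have hlt := Nat.find_min hex (Nat.sub_lt hk0 one_pos)
      push Not at hlt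
      have hs := hstep (n2 + (k - 1)) (by omega)
      rw [show n2 + (k - 1) + 1 = n2 + k by omega] at hs
      rw [abs_le] at hs
      rw [abs_le]
      constructor <;> linarith
  have hge0 : n0 ≤ n2 + k := by omega
  obtain ⟨x, hx, hy⟩ := hnear _ hge0
  have hxX : |(X : ℝ) - x| ≤ D + w := by
    rw [abs_le] at hx hclose ⊢
    constructor <;> linarith
  have hx1 : X1 ≤ x := by
    have := hn1 (n2 + k) (by omega)
    rw [abs_le] at hx
    linarith
  have hfx := hX1 x X hx1 (le_trans (le_max_left _ _) hN) hxX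
  have hax : |a * ((X : ℝ) - x)| ≤ |a| * (D + w) := by
    rw [abs_mul]; gcongr
  refine hfree (p (n2 + k)) ?_ ?_ (hp _ hge0)
  · have : |(((p (n2 + k)).re - X : ℤ) : ℝ)| ≤ (R : ℝ) := by
      push_cast
      linarith [le_max_left D (w + |a| * (D + w) + 3)]
    exact_mod_cast this
  · have : |(((p (n2 + k)).im - Y : ℤ) : ℝ)| ≤ (R : ℝ) := by
      push_cast
      have := le_max_right D (w + |a| * (D + w) + 3)
      rw [abs_le] at hy hY hfx hax ⊢
      constructor <;> linarith
    exact_mod_cast this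

/-- An injective sequence of Gaussian integers leaves every box. -/
theorem eventually_outside {p : ℕ → GaussianInt} (hinj : Function.Injective p) (B : ℝ) :
    ∀ᶠ n in atTop, B < |((p n).re : ℝ)| ∨ B < |((p n).im : ℝ)| := by
  obtain ⟨K, hK⟩ := exists_nat_gt B
  let g : ℤ × ℤ → GaussianInt := fun q => ⟨q.1, q.2⟩
  have hfin : (p ⁻¹' (g '' (Set.Icc (-(K : ℤ)) K ×ˢ Set.Icc (-(K : ℤ)) K))).Finite :=
    (((Set.finite_Icc _ _).prod (Set.finite_Icc _ _)).image g).preimage hinj.injOn
  rw [← Nat.cofinite_eq_atTop]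
  filter_upwards [hfin.eventually_cofinite_notMem] with n hn
  by_contra hcon
  push Not at hcon
  apply hn
  refine ⟨((p n).re, (p n).im), ⟨?_, ?_⟩, rfl⟩
  · have : |((p n).re : ℝ)| ≤ (K : ℝ) := by linarith [hcon.1]
    have : |(p n).re| ≤ (K : ℤ) := by exact_mod_cast this
    exact Set.mem_Icc.2 (abs_le.1 this)
  · have : |((p n).im : ℝ)| ≤ (K : ℝ) := by linarith [hcon.2]
    have : |(p n).im| ≤ (K : ℤ) := by exact_mod_cast this
    exact Set.mem_Icc.2 (abs_le.1 this)

/-- Reflection in the imaginary axis. -/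
def flipRe (z : GaussianInt) : GaussianInt := ⟨-z.re, z.im⟩

/-- Reflection in the diagonal. -/
def swapReIm (z : GaussianInt) : GaussianInt := ⟨z.im, z.re⟩

theorem prime_star_of_prime {z : GaussianInt} (hz : Prime z) : Prime (star z) := by
  have h := (MulEquiv.prime_iff (starMulAut : GaussianInt ≃* GaussianInt) (p := z)).2 hz
  simpa using h

theorem prime_flipRe {z : GaussianInt} (hz : Prime z) : Prime (flipRe z) := by
  have h := (prime_star_of_prime hz).neg
  have : flipRe z = -(star z) := by ext <;> simp [flipRe]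
  rwa [this]

theorem prime_swapReIm {z : GaussianInt} (hz : Prime z) : Prime (swapReIm z) := by
  have hu : IsUnit (⟨0, 1⟩ : GaussianInt) :=
    IsUnit.of_mul_eq_one (⟨0, -1⟩ : GaussianInt) (by ext <;> simp)
  have h : Associated (star z) (⟨0, 1⟩ * star z) := by
    obtain ⟨u, hu'⟩ := hu
    exact ⟨u, by rw [hu']; ring⟩
  have : swapReIm z = ⟨0, 1⟩ * star z := by ext <;> simp [swapReIm]
  rw [this]
  exact h.prime (prime_star_of_prime hz)

theorem flipRe_injective : Function.Injective flipRe := fun x y h => by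
  have h1 := congrArg Zsqrtd.re h
  have h2 := congrArg Zsqrtd.im h
  simp [flipRe] at h1 h2
  ext <;> assumption

theorem swapReIm_injective : Function.Injective swapReIm := fun x y h => by
  have h1 := congrArg Zsqrtd.re h
  have h2 := congrArg Zsqrtd.im h
  simp [swapReIm] at h1 h2
  ext <;> assumption

/-- No walk of Gaussian primes near the graph of a function of convergent slope on a half-line. -/
theorem no_walk_near_graph {f f' : ℝ → ℝ} {a X0 : ℝ}
    (hf : ∀ x, X0 ≤ x → HasDerivAt f (f' x) x) (hlim : Tendsto f' atTop (𝓝 a)) (D w : ℝ) :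
    ¬ ∃ p : ℕ → GaussianInt, Function.Injective p ∧ (∀ n, Prime (p n)) ∧
      (∀ n, (((p (n + 1)).re : ℝ) - (p n).re) ^ 2 + (((p (n + 1)).im : ℝ) - (p n).im) ^ 2 ≤ D ^ 2) ∧
      (∀ n, ∃ x : ℝ, X0 ≤ x ∧ (((p n).re : ℝ) - x) ^ 2 + (((p n).im : ℝ) - f x) ^ 2 ≤ w ^ 2) := by
  rintro ⟨p, hinj, hp, hstep, hnear⟩
  refine no_walk_tail (asympSlope_of_deriv hf hlim) (n0 := 0) (D := |D|) (w := |w|)
    (fun n _ => hp n) (fun n _ => sq_le_sq.1 ?_) (fun n _ => ?_) ?_
  · nlinarith [hstep n, sq_nonneg (((p (n + 1)).im : ℝ) - (p n).im)]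
  · obtain ⟨x, -, hx⟩ := hnear n
    refine ⟨x, sq_le_sq.1 ?_, sq_le_sq.1 ?_⟩
    · nlinarith [sq_nonneg (((p n).im : ℝ) - f x)]
    · nlinarith [sq_nonneg (((p n).re : ℝ) - x)]
  · refine tendsto_atTop.2 fun B => ?_
    have hc : ContinuousOn f (Set.Icc X0 (B + |w|)) :=
      fun t ht => (hf t ht.1).continuousAt.continuousWithinAt
    obtain ⟨C, hC⟩ := isCompact_Icc.exists_bound_of_continuousOn hc
    filter_upwards [eventually_outside hinj (max (|X0| + |B| + |w|) (C + |w|))] with n hn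
    by_contra hlt
    push Not at hlt
    obtain ⟨x, hX0x, hx⟩ := hnear n
    have h1 : |((p n).re : ℝ) - x| ≤ |w| := by
      apply sq_le_sq.1
      nlinarith [sq_nonneg (((p n).im : ℝ) - f x)]
    have h2 : |((p n).im : ℝ) - f x| ≤ |w| := by
      apply sq_le_sq.1
      nlinarith [sq_nonneg (((p n).re : ℝ) - x)]
    rw [abs_le] at h1 h2
    have h3 := hC x ⟨hX0x, by linarith⟩
    rw [Real.norm_eq_abs, abs_le] at h3
    rcases hn with h | h
    · have := lt_of_le_of_lt (le_max_left _ _) h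
      rcases lt_abs.1 this with h' | h'
      · linarith [le_abs_self B, abs_nonneg X0, abs_nonneg w]
      · linarith [neg_abs_le X0, abs_nonneg B]
    · have := lt_of_le_of_lt (le_max_right _ _) h
      rcases lt_abs.1 this with h' | h' <;> linarith

/-- The same near the transposed graph. -/
theorem no_walk_near_transposed {f f' : ℝ → ℝ} {a X0 : ℝ}
    (hf : ∀ x, X0 ≤ x → HasDerivAt f (f' x) x) (hlim : Tendsto f' atTop (𝓝 a)) (D w : ℝ) :
    ¬ ∃ p : ℕ → GaussianInt, Function.Injective p ∧ (∀ n, Prime (p n)) ∧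
      (∀ n, (((p (n + 1)).re : ℝ) - (p n).re) ^ 2 + (((p (n + 1)).im : ℝ) - (p n).im) ^ 2 ≤ D ^ 2) ∧
      (∀ n, ∃ x : ℝ, X0 ≤ x ∧ (((p n).re : ℝ) - f x) ^ 2 + (((p n).im : ℝ) - x) ^ 2 ≤ w ^ 2) := by
  rintro ⟨p, hinj, hp, hstep, hnear⟩
  refine no_walk_near_graph hf hlim D w ⟨fun n => swapReIm (p n),
    swapReIm_injective.comp hinj, fun n => prime_swapReIm (hp n), fun n => ?_, fun n => ?_⟩
  · simpa [swapReIm, add_comm] using hstep n
  · simpa [swapReIm, add_comm] using hnear n

/-- No walk of Gaussian primes near a non-vertical line. -/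
theorem no_walk_near_affine (a b D w : ℝ) :
    ¬ ∃ p : ℕ → GaussianInt, Function.Injective p ∧ (∀ n, Prime (p n)) ∧
      (∀ n, (((p (n + 1)).re : ℝ) - (p n).re) ^ 2 + (((p (n + 1)).im : ℝ) - (p n).im) ^ 2 ≤ D ^ 2) ∧
      (∀ n, ∃ x : ℝ,
        (((p n).re : ℝ) - x) ^ 2 + (((p n).im : ℝ) - (a * x + b)) ^ 2 ≤ w ^ 2) := by
  rintro ⟨p, hinj, hp, hstep, hnear⟩
  have hre : ∀ n, |((p (n + 1)).re : ℝ) - (p n).re| ≤ |D| := fun n => by
    apply sq_le_sq.1
    nlinarith [hstep n, sq_nonneg (((p (n + 1)).im : ℝ) - (p n).im)]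
  have hxy : ∀ n, ∃ x : ℝ, |((p n).re : ℝ) - x| ≤ |w| ∧
      |((p n).im : ℝ) - (a * x + b)| ≤ |w| := fun n => by
    obtain ⟨x, hx⟩ := hnear n
    refine ⟨x, sq_le_sq.1 ?_, sq_le_sq.1 ?_⟩
    · nlinarith [sq_nonneg (((p n).im : ℝ) - (a * x + b))]
    · nlinarith [sq_nonneg (((p n).re : ℝ) - x)]
  have habs : ∀ B : ℝ, ∀ᶠ n in atTop, B < |((p n).re : ℝ)| := fun B => by
    filter_upwards [eventually_outside hinj
      (max B (|a| * (|B| + |w|) + |b| + |w|))] with n hn
    by_contra hle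
    push Not at hle
    obtain ⟨x, h1, h2⟩ := hxy n
    have hx : |x| ≤ |B| + |w| := by
      rw [abs_le] at h1 hle ⊢
      constructor <;> linarith [le_abs_self B]
    have hax : |a * x| ≤ |a| * (|B| + |w|) := by rw [abs_mul]; gcongr
    rcases hn with h | h
    · linarith [le_max_left B (|a| * (|B| + |w|) + |b| + |w|)]
    · have h3 := lt_of_le_of_lt (le_max_right _ _) h
      rw [abs_le] at h2 hax
      rcases lt_abs.1 h3 with h4 | h4 <;> linarith [le_abs_self b, neg_abs_le b]
  obtain ⟨n1, hn1⟩ := eventually_atTop.1 (habs (|D| + 1))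
  rcases le_total 0 ((p n1).re : ℝ) with hpos | hneg
  · have hall : ∀ n, n1 ≤ n → 0 ≤ ((p n).re : ℝ) := by
      intro n hn
      induction n, hn using Nat.le_induction with
      | base => exact hpos
      | succ m hm ih =>
        have h1 := hn1 m hm
        rw [abs_of_nonneg ih] at h1
        have h2 := hre m
        rw [abs_le] at h2
        linarith
    refine no_walk_tail (asympSlope_affine a b) (n0 := n1) (fun n _ => hp n) (fun n _ => hre n)
      (fun n _ => hxy n) (tendsto_atTop.2 fun B => ?_)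
    filter_upwards [habs B, eventually_ge_atTop n1] with n hB hn
    rw [abs_of_nonneg (hall n hn)] at hB
    exact hB.le
  · have hall : ∀ n, n1 ≤ n → ((p n).re : ℝ) ≤ 0 := by
      intro n hn
      induction n, hn using Nat.le_induction with
      | base => exact hneg
      | succ m hm ih =>
        have h1 := hn1 m hm
        rw [abs_of_nonpos ih] at h1
        have h2 := hre m
        rw [abs_le] at h2
        linarith
    refine no_walk_tail (asympSlope_affine (-a) b) (p := fun n => flipRe (p n)) (n0 := n1)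
      (D := |D|) (w := |w|) (fun n _ => prime_flipRe (hp n)) (fun n _ => ?_) (fun n _ => ?_)
      (tendsto_atTop.2 fun B => ?_)
    · simp only [flipRe, Int.cast_neg]
      rw [show -((p (n + 1)).re : ℝ) - -((p n).re : ℝ) = -(((p (n + 1)).re : ℝ) - (p n).re) by ring,
        abs_neg]
      exact hre n
    · obtain ⟨x, h1, h2⟩ := hxy n
      refine ⟨-x, ?_, ?_⟩
      · simp only [flipRe, Int.cast_neg]
        rw [show -((p n).re : ℝ) - -x = -(((p n).re : ℝ) - x) by ring, abs_neg]
        exact h1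
      · simp only [flipRe]
        rw [show -a * -x + b = a * x + b by ring]
        exact h2
    · filter_upwards [habs B, eventually_ge_atTop n1] with n hB hn
      rw [abs_of_nonpos (hall n hn)] at hB
      simp only [flipRe, Int.cast_neg]
      exact hB.le

end Vale.Agent.P015
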