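import Vale.Agent.P015.Curve

/-!
Arbitrary lines: prime-free discs and no walks (problem P015).
-/

namespace Vale.Agent.P015

/-- No bounded-step walk of Gaussian primes stays near a line. -/
theorem no_walk_near_line {a b : ℝ} (c : ℝ) (hab : a ≠ 0 ∨ b ≠ 0) (D w : ℝ) :
    ¬ ∃ p : ℕ → GaussianInt, Function.Injective p ∧ (∀ n, Prime (p n)) ∧
      (∀ n, (((p (n + 1)).re : ℝ) - (p n).re) ^ 2 + (((p (n + 1)).im : ℝ) - (p n).im) ^ 2 ≤ D ^ 2) ∧
      (∀ n, ∃ u v : ℝ, a * u + b * v = c ∧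
        (((p n).re : ℝ) - u) ^ 2 + (((p n).im : ℝ) - v) ^ 2 ≤ w ^ 2) := by
  rintro ⟨p, hinj, hp, hstep, hnear⟩
  by_cases hb : b = 0
  · have ha : a ≠ 0 := hab.resolve_right (not_not.2 hb)
    refine no_walk_near_affine 0 (c / a) D w ⟨fun n => swapReIm (p n),
      swapReIm_injective.comp hinj, fun n => prime_swapReIm (hp n), fun n => ?_, fun n => ?_⟩
    · simpa [swapReIm, add_comm] using hstep n
    · obtain ⟨u, v, huv, h⟩ := hnear n
      refine ⟨v, ?_⟩
      have hu : u = c / a := by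
        rw [eq_div_iff ha]
        subst hb
        linarith
      simpa [swapReIm, hu, add_comm] using h
  · refine no_walk_near_affine (-a / b) (c / b) D w ⟨p, hinj, hp, hstep, fun n => ?_⟩
    obtain ⟨u, v, huv, h⟩ := hnear n
    refine ⟨u, ?_⟩
    have hv : v = -a / b * u + c / b := by
      field_simp
      linarith
    rwa [← hv]

/-- Prime-free discs of every radius centred on every line, arbitrarily far away. -/
theorem exists_prime_free_disc_line {a b : ℝ} (c : ℝ) (hab : a ≠ 0 ∨ b ≠ 0) (r N : ℝ) :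
    ∃ u v : ℝ, a * u + b * v = c ∧ N ≤ u ^ 2 + v ^ 2 ∧ ∀ z : GaussianInt,
      ((z.re : ℝ) - u) ^ 2 + ((z.im : ℝ) - v) ^ 2 ≤ r ^ 2 → ¬ Prime z := by
  by_cases hb : b = 0
  · have ha : a ≠ 0 := hab.resolve_right (not_not.2 hb)
    obtain ⟨x, hx, hfree⟩ :=
      exists_prime_free_disc (asympSlope_affine 0 (c / a)) r (|N| + 1)
    refine ⟨c / a, x, by rw [hb]; field_simp; ring, ?_, fun z hz hzp => ?_⟩
    · nlinarith [le_abs_self N, sq_nonneg (c / a), abs_nonneg N]
    · refine hfree (swapReIm z) ?_ (prime_swapReIm hzp)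
      simpa [swapReIm, add_comm] using hz
  · obtain ⟨x, hx, hfree⟩ :=
      exists_prime_free_disc (asympSlope_affine (-a / b) (c / b)) r (|N| + 1)
    refine ⟨x, -a / b * x + c / b, by field_simp; ring, ?_, hfree⟩
    nlinarith [le_abs_self N, sq_nonneg (-a / b * x + c / b), abs_nonneg N]

end Vale.Agent.P015
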